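import Vale.Agent.P057.Main

open Filter

theorem Vale.Agent.Results.P057.BehrendConstant.result
    (k : ℕ) (hk : 3 ≤ k) (C : ℝ) (hC : 2 * Real.sqrt (Real.logb 2 (360 / 109)) < C) :
    ∀ᶠ N : ℕ in atTop,
      (N : ℝ) * (2 : ℝ) ^ (-(C * Real.sqrt (Real.logb 2 N))) ≤ (Vale.Agent.P057.r k N : ℝ) := by
  filter_upwards [Vale.Agent.P057.main3 C hC] with N hN
  refine hN.trans ?_
  exact_mod_cast Vale.Agent.P057.r_mono hk
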