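import Vale.Agent.P057.KM.Final

open Filter

theorem Vale.Agent.Results.P057.ThreeTermSixth.result :
    ∃ c : ℝ, 0 < c ∧ ∀ᶠ N : ℕ in atTop,
      (Vale.Agent.P057.r 3 N : ℝ) ≤
        N * Real.exp (-c * (Real.log N) ^ (1 / 6 : ℝ) * (Real.log (Real.log N))⁻¹) := by
  obtain ⟨c, hc, h⟩ := Vale.Agent.P057.KM.r_three_bound
  refine ⟨c, hc, ?_⟩
  have hlog : Tendsto (fun N : ℕ => Real.log (Real.log N)) atTop atTop :=
    Real.tendsto_log_atTop.comp (Real.tendsto_log_atTop.comp tendsto_natCast_atTop_atTop)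
  have hlog1 : Tendsto (fun N : ℕ => Real.log N) atTop atTop :=
    Real.tendsto_log_atTop.comp tendsto_natCast_atTop_atTop
  filter_upwards [h, hlog.eventually_ge_atTop 1, hlog1.eventually_ge_atTop 0] with N hN h1 h2
  refine hN.trans ?_
  refine mul_le_mul_of_nonneg_left ?_ (Nat.cast_nonneg _)
  rw [Real.exp_le_exp]
  have h3 : (Real.log N) ^ (1 / 6 : ℝ) * (Real.log (Real.log N))⁻¹ ≤
      (Real.log N / Real.log (Real.log N)) ^ (1 / 6 : ℝ) := by
    rw [Real.div_rpow h2 (by linarith), div_eq_mul_inv]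
    refine mul_le_mul_of_nonneg_left ?_ (Real.rpow_nonneg h2 _)
    refine inv_anti₀ (Real.rpow_pos_of_pos (by linarith) _) ?_
    calc (Real.log (Real.log N)) ^ (1 / 6 : ℝ) ≤ (Real.log (Real.log N)) ^ (1 : ℝ) :=
          Real.rpow_le_rpow_of_exponent_le h1 (by norm_num)
      _ = _ := Real.rpow_one _
  calc -c * (Real.log N / Real.log (Real.log N)) ^ (1 / 6 : ℝ)
      = -(c * (Real.log N / Real.log (Real.log N)) ^ (1 / 6 : ℝ)) := by ring
    _ ≤ -(c * ((Real.log N) ^ (1 / 6 : ℝ) * (Real.log (Real.log N))⁻¹)) :=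
        neg_le_neg (mul_le_mul_of_nonneg_left h3 hc.le)
    _ = _ := by ring
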