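import Vale.Agent.P057.KM.Final

open Filter

theorem Vale.Agent.Results.P057.ThreeTermUpper.result :
    ∃ c : ℝ, 0 < c ∧ ∀ᶠ N : ℕ in atTop,
      (Vale.Agent.P057.r 3 N : ℝ) ≤
        N * Real.exp (-c * (Real.log N / Real.log (Real.log N)) ^ (1 / 6 : ℝ)) := by
  obtain ⟨C, hC, h⟩ := Vale.Agent.P057.KM.r_three_bound
  exact ⟨C, hC, h⟩
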